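import Vale.Agent.P011.D4Z.H319.Lim0
import Vale.Agent.P011.D4Z.H370.Moves

/-!
Block D4Z (helper319): limits of the elements of the long subgroup.
-/

open Topology NumberField Filter

namespace Vale.Agent.P011.D4Z

open Vale.Agent.P011.MPQ Vale.Agent.P011.D4 Vale.Agent.P011.D4.Oct Vale.Agent.P011.D4X
open Vale.Agent.P011.E6

variable {k L E : Type} [Field k] [NumberField k] [Field L] [NumberField L] [Field E]
  [Algebra k L] [Algebra k E] [Algebra L E]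
  [IsScalarTower k L E] [NeZero (2 : E)] {ρ σ : E ≃ₐ[k] E} {ρL : L ≃ₐ[k] L} {α : E}
  {a b c : kˣ} {q : Lˣ} (H : Hy ρ σ ρL α a b c q)

include H

/-- T3b (x₀ part). -/
theorem zlim_0 [Algebra k ℂ] (W : E →ₐ[k] ℂ) (hW : (W : E →+* ℂ) ∈ Bd ρ σ q)
    {b' c' : kˣ} {j l : Oct a b c} (h : Trip a b' c' gi j l) [NeZero (2 : ℂ)]
    {X0 : Qt (up ℂ a) (up ℂ b')} (n0 : nrd X0 = 1) (r0 : cjq X0 = X0) :
    ∃ X ∈ cl (Bd ρ σ q) (Rs ρ σ α a b c q),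
      (∀ y : OctL ℂ a b' c', act (X ⟨W, hW⟩) (tripO ℂ h y) = tripO ℂ h ⟨y.fst, X0 * y.snd⟩) ∧
      ∀ V : Bd ρ σ q, V.1.comp (algebraMap k E) ≠ algebraMap k ℂ → X V = 1 :=
  H319.zlim_0_of W hW h (fun _ h0 => H370.move_0 H h h0) n0 r0

end Vale.Agent.P011.D4Z
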