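import Vale.Agent.P011.D4Z.H493.Ev
import Vale.Agent.P011.D4Z.H370.Dens

/-!
Block D4Z (helper319): limits of the elements of the long subgroup.
-/

open Topology NumberField Filter

set_option linter.unusedSectionVars false

namespace Vale.Agent.P011.D4Z.H319

open Vale.Agent.P011.MPQ Vale.Agent.P011.D4 Vale.Agent.P011.D4.Oct Vale.Agent.P011.D4X
open Vale.Agent.P011.E6 Vale.Agent.P011.D4Z Vale.Agent.P011.D4X.H637
open scoped ComplexConjugate

section gen

variable {F : Type} [Field F] {a b c : Fˣ}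

theorem split5 (Q Y Z : Qt a b) : (⟨Y, Q * Z⟩ : Oct a b c) = ⟨Y, 0⟩ + (Q.re • ⟨0, Z⟩ +
    (Q.imI • ⟨0, (⟨0, 1, 0, 0⟩ : Qt a b) * Z⟩ + (Q.imJ • ⟨0, (⟨0, 0, 1, 0⟩ : Qt a b) * Z⟩ +
      Q.imK • ⟨0, (⟨0, 0, 0, 1⟩ : Qt a b) * Z⟩))) := by
  apply ext8 <;>
    simp only [fst_add, snd_add, fst_smul, snd_smul, QuaternionAlgebra.re_add,
      QuaternionAlgebra.imI_add, QuaternionAlgebra.imJ_add, QuaternionAlgebra.imK_add,
      QuaternionAlgebra.re_smul, QuaternionAlgebra.imI_smul, QuaternionAlgebra.imJ_smul,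
      QuaternionAlgebra.imK_smul, QuaternionAlgebra.re_mul, QuaternionAlgebra.imI_mul,
      QuaternionAlgebra.imJ_mul, QuaternionAlgebra.imK_mul, QuaternionAlgebra.re_zero,
      QuaternionAlgebra.imI_zero, QuaternionAlgebra.imJ_zero, QuaternionAlgebra.imK_zero,
      smul_eq_mul] <;> ring

/-- Coordinates of the value of a linear map. -/
theorem co8_split {K : Type} [Field K] {a' b' c' : Kˣ} {a b c : Kˣ}
    (T : Oct a' b' c' →ₗ[K] Oct a b c) (Q Y Z : Qt a' b') (i : Fin 8) :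
    co8 (T ⟨Y, Q * Z⟩) i = co8 (T ⟨Y, 0⟩) i + (Q.re * co8 (T ⟨0, Z⟩) i +
      (Q.imI * co8 (T ⟨0, (⟨0, 1, 0, 0⟩ : Qt a' b') * Z⟩) i +
        (Q.imJ * co8 (T ⟨0, (⟨0, 0, 1, 0⟩ : Qt a' b') * Z⟩) i +
          Q.imK * co8 (T ⟨0, (⟨0, 0, 0, 1⟩ : Qt a' b') * Z⟩) i))) := by
  rw [split5, map_add, map_add, map_add, map_add, map_smul, map_smul, map_smul, map_smul]
  simp only [co8_add, co8_smul, Pi.add_apply, Pi.smul_apply, smul_eq_mul]

end gen

section ev

variable {k E : Type} [Field k] [Field E] [Algebra k E] {a b c b' c' : kˣ} [Algebra k ℂ]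
  {W : E →ₐ[k] ℂ}

theorem ev_oup (x : Oct a b c) : ev W (oup E x) = oup ℂ x := by
  apply co8_inj
  funext i
  rw [co8_ev]
  fin_cases i <;> exact W.commutes _

theorem e_oup (K : Type) [Field K] [Algebra k K] (j : Fin 8) :
    (of8 (Pi.single j 1) : OctL K a b c) = oup K (of8 (Pi.single j 1)) := by
  apply co8_inj
  rw [co8_of8]
  funext i
  fin_cases j <;> fin_cases i <;>
    first
    | exact (map_one (algebraMap k K)).symm
    | exact (map_zero (algebraMap k K)).symm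

theorem ev_tripO [NeZero (2 : E)] [NeZero (2 : ℂ)] {j l : Oct a b c} (h : Trip a b' c' gi j l)
    (x : OctL E a b' c') : ev W (tripO E h x) = tripO ℂ h (ev W x) := by
  have key : ∀ s : Finset (Fin 8),
      ev W (tripO E h (∑ j ∈ s, co8 x j • (of8 (Pi.single j 1) : OctL E a b' c'))) =
        tripO ℂ h (∑ j ∈ s, co8 (ev W x) j • (of8 (Pi.single j 1) : OctL ℂ a b' c')) := by
    intro s
    induction s using Finset.induction_on with
    | empty =>
      rw [Finset.sum_empty, Finset.sum_empty, map_zero, map_zero]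
      have h1 := ev_smul (W := W) (0 : E) (0 : OctL E a b c)
      rw [zero_smul, map_zero, zero_smul] at h1
      exact h1
    | insert j s hj ih =>
      rw [Finset.sum_insert hj, Finset.sum_insert hj, map_add, map_add, ev_add, ih, map_smul,
        map_smul, ev_smul, e_oup, e_oup, tripO_oup, tripO_oup, ev_oup, co8_ev]
  have h1 := key Finset.univ
  rwa [← sum_e, ← sum_e] at h1

end ev

section lim

/-- The limits of the quaternions give the limits of the values of the linear maps. -/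
theorem tendsto_split {a b c a' b' c' : ℂˣ} (T : Oct a' b' c' →ₗ[ℂ] Oct a b c)
    {Q : ℕ → Qt a' b'} {Q0 : Qt a' b'} (h0 : Tendsto (fun n => (Q n).re) atTop (𝓝 Q0.re))
    (h1 : Tendsto (fun n => (Q n).imI) atTop (𝓝 Q0.imI))
    (h2 : Tendsto (fun n => (Q n).imJ) atTop (𝓝 Q0.imJ))
    (h3 : Tendsto (fun n => (Q n).imK) atTop (𝓝 Q0.imK)) (Y Z : Qt a' b') (i : Fin 8) :
    Tendsto (fun n => co8 (T ⟨Y, Q n * Z⟩) i) atTop (𝓝 (co8 (T ⟨Y, Q0 * Z⟩) i)) := by
  have e : ∀ Q : Qt a' b', co8 (T ⟨Y, Q * Z⟩) i = _ := fun Q => co8_split T Q Y Z i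
  rw [e Q0]
  simp only [e]
  exact tendsto_const_nhds.add ((h0.mul_const _).add ((h1.mul_const _).add
    ((h2.mul_const _).add (h3.mul_const _))))

end lim

section main

variable {k L E : Type} [Field k] [NumberField k] [Field L] [NumberField L] [Field E]
  [Algebra k L] [Algebra k E] [Algebra L E]
  [IsScalarTower k L E] [NeZero (2 : E)] {ρ σ : E ≃ₐ[k] E} {α : E}
  {a b c : kˣ} {q : Lˣ}

/-- The real place of `k` under a bad place. -/
theorem exists_real {V : E →+* ℂ} (hV : V ∈ Bd ρ σ q) :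
    ∃ τ : k →+* ℝ, ∀ t : k, V (algebraMap k E t) = ((τ t : ℝ) : ℂ) := by
  have hR : ComplexEmbedding.IsReal (V.comp (algebraMap k E)) := by
    rw [ComplexEmbedding.isReal_iff]
    ext t
    rw [ComplexEmbedding.conjugate_coe_eq, RingHom.comp_apply, ← hV.1, AlgEquiv.commutes]
  exact ⟨hR.embedding, fun t => (hR.coe_embedding_apply t).symm⟩

theorem zlim_0_of {G : Subgroup (OctL E a b c ≃ₗ[E] OctL E a b c)}
    [Algebra k ℂ] (W : E →ₐ[k] ℂ) (hW : (W : E →+* ℂ) ∈ Bd ρ σ q)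
    {b' c' : kˣ} {j l : Oct a b c} (h : Trip a b' c' gi j l) [NeZero (2 : ℂ)]
    (hmem : ∀ x0 : Qt a b', nrd x0 = 1 → ∃ z ∈ G,
      ∀ y : OctL E a b' c', z (tripO E h y) = tripO E h ⟨y.fst, qup E x0 * y.snd⟩)
    {X0 : Qt (up ℂ a) (up ℂ b')} (n0 : nrd X0 = 1) (r0 : cjq X0 = X0) :
    ∃ X ∈ cl (Bd ρ σ q) G,
      (∀ y : OctL ℂ a b' c', act (X ⟨W, hW⟩) (tripO ℂ h y) = tripO ℂ h ⟨y.fst, X0 * y.snd⟩) ∧
      ∀ V : Bd ρ σ q, V.1.comp (algebraMap k E) ≠ algebraMap k ℂ → X V = 1 := by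
  classical
  obtain ⟨τ₀, hτ₀⟩ := exists_real hW
  have hk : ∀ t : k, algebraMap k ℂ t = ((τ₀ t : ℝ) : ℂ) := fun t => by
    rw [← hτ₀]; exact (W.commutes t).symm
  -- the coordinates of `X0` are real
  have c0 : ((X0.re.re : ℝ) : ℂ) = X0.re :=
    Complex.conj_eq_iff_re.1 (congrArg (fun x : Qt (up ℂ a) (up ℂ b') => x.re) r0)
  have c1 : ((X0.imI.re : ℝ) : ℂ) = X0.imI :=
    Complex.conj_eq_iff_re.1 (congrArg (fun x : Qt (up ℂ a) (up ℂ b') => x.imI) r0)
  have c2 : ((X0.imJ.re : ℝ) : ℂ) = X0.imJ :=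
    Complex.conj_eq_iff_re.1 (congrArg (fun x : Qt (up ℂ a) (up ℂ b') => x.imJ) r0)
  have c3 : ((X0.imK.re : ℝ) : ℂ) = X0.imK :=
    Complex.conj_eq_iff_re.1 (congrArg (fun x : Qt (up ℂ a) (up ℂ b') => x.imK) r0)
  obtain ⟨X, hX⟩ : ∃ X : ∀ τ : k →+* ℝ, QuaternionAlgebra ℝ (τ (a : k)) 0 (τ (b' : k)), X =
    fun τ => ⟨if τ = τ₀ then X0.re.re else 1, if τ = τ₀ then X0.imI.re else 0,
      if τ = τ₀ then X0.imJ.re else 0, if τ = τ₀ then X0.imK.re else 0⟩ := ⟨_, rfl⟩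
  have hX1 : ∀ τ ∈ (Finset.univ : Finset (k →+* ℝ)), qn (X τ) = 1 := by
    intro τ _
    rw [hX]
    by_cases hτ : τ = τ₀
    · subst hτ
      simp only [qn, if_true]
      have h1 : ((X0.re.re ^ 2 - τ a * X0.imI.re ^ 2 - τ b' * X0.imJ.re ^ 2 +
        τ a * τ b' * X0.imK.re ^ 2 : ℝ) : ℂ) = ((1 : ℝ) : ℂ) := by
        rw [Complex.ofReal_one, ← n0]
        have ea : ((up ℂ a : ℂˣ) : ℂ) = ((τ (a : k) : ℝ) : ℂ) := hk a
        have eb : ((up ℂ b' : ℂˣ) : ℂ) = ((τ (b' : k) : ℝ) : ℂ) := hk b'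
        simp only [nrd, ea, eb]
        push_cast
        rw [c0, c1, c2, c3]
      exact Complex.ofReal_injective h1
    · simp only [qn, if_neg hτ]
      ring
  have hx : ∀ n : ℕ, ∃ x : Qt a b', nrd x = 1 ∧ ∀ τ ∈ (Finset.univ : Finset (k →+* ℝ)),
      |τ x.re - (X τ).re| < 1 / ((n : ℝ) + 1) ∧ |τ x.imI - (X τ).imI| < 1 / ((n : ℝ) + 1) ∧
      |τ x.imJ - (X τ).imJ| < 1 / ((n : ℝ) + 1) ∧ |τ x.imK - (X τ).imK| < 1 / ((n : ℝ) + 1) :=
    fun n => H370.exists_sl1_near _ X hX1 Nat.one_div_pos_of_nat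
  choose x hx1 hx2 using hx
  choose z hz1 hz2 using fun n => hmem (x n) (hx1 n)
  have key : ∀ {f : ℕ → ℝ} {l : ℝ}, (∀ n : ℕ, |f n - l| < 1 / ((n : ℝ) + 1)) →
      Tendsto f atTop (𝓝 l) := by
    intro f l hf
    rw [tendsto_iff_dist_tendsto_zero]
    exact squeeze_zero (fun n => dist_nonneg) (fun n => (hf n).le)
      tendsto_one_div_add_atTop_nhds_zero_nat
  have l0 : ∀ τ : k →+* ℝ, Tendsto (fun n => τ (x n).re) atTop (𝓝 (X τ).re) := fun τ =>
    key fun n => (hx2 n τ (Finset.mem_univ _)).1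
  have l1 : ∀ τ : k →+* ℝ, Tendsto (fun n => τ (x n).imI) atTop (𝓝 (X τ).imI) := fun τ =>
    key fun n => (hx2 n τ (Finset.mem_univ _)).2.1
  have l2 : ∀ τ : k →+* ℝ, Tendsto (fun n => τ (x n).imJ) atTop (𝓝 (X τ).imJ) := fun τ =>
    key fun n => (hx2 n τ (Finset.mem_univ _)).2.2.1
  have l3 : ∀ τ : k →+* ℝ, Tendsto (fun n => τ (x n).imK) atTop (𝓝 (X τ).imK) := fun τ =>
    key fun n => (hx2 n τ (Finset.mem_univ _)).2.2.2
  have lC : ∀ {f : ℕ → ℝ} {l : ℝ}, Tendsto f atTop (𝓝 l) →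
      Tendsto (fun n => ((f n : ℝ) : ℂ)) atTop (𝓝 (l : ℂ)) := fun hf =>
    (Complex.continuous_ofReal.tendsto _).comp hf
  -- the limits of the entries
  have hent : ∀ (V : Bd ρ σ q) (i j : Fin 8), ∃ ℓ : ℂ,
      Tendsto (fun n => matW V.1 (z n) i j) atTop (𝓝 ℓ) ∧
      (V.1.comp (algebraMap k E) ≠ algebraMap k ℂ →
        ℓ = (1 : Matrix (Fin 8) (Fin 8) ℂ) i j) := by
    intro V i j
    obtain ⟨τ, hτ⟩ := exists_real V.2
    obtain ⟨y, hy⟩ : ∃ y, tripO E h y = (of8 (Pi.single j 1) : OctL E a b c) :=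
      (tripO E h).surjective _
    have e : ∀ n, matW V.1 (z n) i j = V.1 (co8 (tripO E h ⟨y.fst, 0⟩) i) +
        (((τ (x n).re : ℝ) : ℂ) * V.1 (co8 (tripO E h ⟨0, y.snd⟩) i) +
        (((τ (x n).imI : ℝ) : ℂ) *
          V.1 (co8 (tripO E h ⟨0, (⟨0, 1, 0, 0⟩ : Qt (up E a) (up E b')) * y.snd⟩) i) +
        (((τ (x n).imJ : ℝ) : ℂ) *
          V.1 (co8 (tripO E h ⟨0, (⟨0, 0, 1, 0⟩ : Qt (up E a) (up E b')) * y.snd⟩) i) +
        ((τ (x n).imK : ℝ) : ℂ) *
          V.1 (co8 (tripO E h ⟨0, (⟨0, 0, 0, 1⟩ : Qt (up E a) (up E b')) * y.snd⟩) i)))) := by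
      intro n
      change V.1 (co8 (z n (of8 (Pi.single j 1))) i) = _
      have h1 := co8_split (tripO E h : OctL E a b' c' →ₗ[E] OctL E a b c) (qup E (x n)) y.fst
        y.snd i
      rw [← hy, hz2]
      refine (congrArg V.1 h1).trans ?_
      simp only [map_add, map_mul]
      rw [← hτ, ← hτ, ← hτ, ← hτ]
      rfl
    refine ⟨V.1 (co8 (tripO E h ⟨y.fst, 0⟩) i) +
        ((((X τ).re : ℝ) : ℂ) * V.1 (co8 (tripO E h ⟨0, y.snd⟩) i) +
        ((((X τ).imI : ℝ) : ℂ) *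
          V.1 (co8 (tripO E h ⟨0, (⟨0, 1, 0, 0⟩ : Qt (up E a) (up E b')) * y.snd⟩) i) +
        ((((X τ).imJ : ℝ) : ℂ) *
          V.1 (co8 (tripO E h ⟨0, (⟨0, 0, 1, 0⟩ : Qt (up E a) (up E b')) * y.snd⟩) i) +
        (((X τ).imK : ℝ) : ℂ) *
          V.1 (co8 (tripO E h ⟨0, (⟨0, 0, 0, 1⟩ : Qt (up E a) (up E b')) * y.snd⟩) i)))),
      ?_, ?_⟩
    · simp only [e]
      exact tendsto_const_nhds.add (((lC (l0 τ)).mul_const _).add
        (((lC (l1 τ)).mul_const _).add (((lC (l2 τ)).mul_const _).add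
          ((lC (l3 τ)).mul_const _))))
    · intro hne
      have hτ' : τ ≠ τ₀ := by
        rintro rfl
        apply hne
        ext t
        rw [RingHom.comp_apply, hτ, hk]
      rw [hX]
      simp only [if_neg hτ', Complex.ofReal_one, Complex.ofReal_zero, zero_mul, add_zero, one_mul]
      rw [← map_add]
      have h2 : co8 (tripO E h ⟨y.fst, 0⟩) i + co8 (tripO E h ⟨0, y.snd⟩) i =
          (Pi.single j 1 : Fin 8 → E) i := by
        have h3 : (⟨y.fst, 0⟩ + ⟨0, y.snd⟩ : OctL E a b' c') = y := by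
          apply Oct.ext
          · exact add_zero _
          · exact zero_add _
        rw [← Pi.add_apply, ← co8_add, ← map_add, h3, hy, co8_of8]
      rw [h2, Matrix.one_apply]
      by_cases hij : i = j
      · subst hij
        rw [Pi.single_eq_same, if_pos rfl, map_one]
      · rw [Pi.single_eq_of_ne hij, if_neg hij, map_zero]
  choose Y hY1 hY2 using hent
  obtain ⟨M, hM⟩ : ∃ M : Bd ρ σ q → Matrix (Fin 8) (Fin 8) ℂ, ∀ V i j, M V i j = Y V i j :=
    ⟨fun V => Matrix.of (Y V), fun _ _ _ => rfl⟩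
  have hM1 : ∀ (V : Bd ρ σ q) (i j : Fin 8),
      Tendsto (fun n => matW V.1 (z n) i j) atTop (𝓝 (M V i j)) := fun V i j => by
    rw [hM]
    exact hY1 V i j
  refine ⟨M, ?_, ?_, ?_⟩
  · refine mem_closure_of_tendsto (f := fun n => mat (Bd ρ σ q) (z n)) (b := atTop) ?_
      (Eventually.of_forall fun n => ⟨z n, hz1 n, rfl⟩)
    refine tendsto_pi_nhds.2 fun V => ?_
    exact (tendsto_pi_nhds.2 fun i => tendsto_pi_nhds.2 fun j => hM1 V i j :
      Tendsto (fun n => (matW V.1 (z n) : Fin 8 → Fin 8 → ℂ)) atTop (𝓝 (M V)))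
  · intro y
    induction y using ev_induction (W := W) with
    | h0 y =>
      apply co8_inj
      funext i
      have g1 : Tendsto (fun n => co8 (act (matW (W : E →+* ℂ) (z n)) (ev W (tripO E h y))) i)
          atTop (𝓝 (co8 (act (M ⟨W, hW⟩) (ev W (tripO E h y))) i)) := by
        simp only [act_apply, co8_of8, Matrix.mulVec, dotProduct]
        exact tendsto_finsetSum _ fun j _ => (hM1 ⟨W, hW⟩ i j).mul_const _
      have g2 : ∀ n, co8 (act (matW (W : E →+* ℂ) (z n)) (ev W (tripO E h y))) i =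
          co8 ((tripO ℂ h : OctL ℂ a b' c' →ₗ[ℂ] OctL ℂ a b c)
            ⟨(ev W y).fst, evq W (qup E (x n)) * (ev W y).snd⟩) i := by
        intro n
        have g3 := act_matW (W := W) (z n : OctL E a b c →ₗ[E] OctL E a b c) (tripO E h y)
        change act (matW (W : E →+* ℂ) (z n)) (ev W (tripO E h y)) =
          ev W (z n (tripO E h y)) at g3
        rw [g3, hz2, ev_tripO, ev_eq, evq_mul]
        rfl
      simp only [g2] at g1
      have g4 := tendsto_split (tripO ℂ h : OctL ℂ a b' c' →ₗ[ℂ] OctL ℂ a b c)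
        (Q := fun n => evq W (qup E (x n))) (Q0 := X0)
        (by
          have h1 := lC (l0 τ₀)
          have h2 : (((X τ₀).re : ℝ) : ℂ) = X0.re := by
            rw [hX]; simp only [if_true]; exact c0
          rw [h2] at h1
          refine h1.congr fun n => ?_
          exact (hτ₀ _).symm)
        (by
          have h1 := lC (l1 τ₀)
          have h2 : (((X τ₀).imI : ℝ) : ℂ) = X0.imI := by
            rw [hX]; simp only [if_true]; exact c1
          rw [h2] at h1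
          refine h1.congr fun n => ?_
          exact (hτ₀ _).symm)
        (by
          have h1 := lC (l2 τ₀)
          have h2 : (((X τ₀).imJ : ℝ) : ℂ) = X0.imJ := by
            rw [hX]; simp only [if_true]; exact c2
          rw [h2] at h1
          refine h1.congr fun n => ?_
          exact (hτ₀ _).symm)
        (by
          have h1 := lC (l3 τ₀)
          have h2 : (((X τ₀).imK : ℝ) : ℂ) = X0.imK := by
            rw [hX]; simp only [if_true]; exact c3
          rw [h2] at h1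
          refine h1.congr fun n => ?_
          exact (hτ₀ _).symm) (ev W y).fst (ev W y).snd i
      have g5 := tendsto_nhds_unique g1 g4
      rw [ev_tripO] at g5
      exact g5
    | ha x y hx hy =>
      have h1 : (⟨(x + y).fst, X0 * (x + y).snd⟩ : OctL ℂ a b' c') =
          ⟨x.fst, X0 * x.snd⟩ + ⟨y.fst, X0 * y.snd⟩ := by
        apply Oct.ext
        · rfl
        · exact mul_add _ _ _
      rw [map_add, map_add, hx, hy, h1, map_add]
    | hs t x hx =>
      have h1 : (⟨(t • x).fst, X0 * (t • x).snd⟩ : OctL ℂ a b' c') =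
          t • ⟨x.fst, X0 * x.snd⟩ := by
        apply Oct.ext
        · rfl
        · exact mul_smul_comm _ _ _
      rw [map_smul, map_smul, hx, h1, map_smul]
  · intro V hV
    ext i j
    rw [hM]
    exact hY2 V i j hV

end main

end Vale.Agent.P011.D4Z.H319
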